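import Mathlib

/-!
Two-way nondeterministic finite automata (2NFA) with endmarkers, following the
conventions of the problem text: the tape holds the left endmarker, the input word
and the right endmarker; the head starts on the left endmarker in the start state;
a transition depends on the state and the scanned symbol, changes the state and moves
the head left, right or not at all, never beyond an endmarker; a word is accepted when
some finite computation reaches an accepting state.
-/

namespace Vale.Agent.Lib.P343

/-- Tape symbols: the left endmarker, an input letter, the right endmarker. -/
inductive TapeSym (α : Type) : Type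
  | lend : TapeSym α
  | letter : α → TapeSym α
  | rend : TapeSym α

/-- Head moves. -/
inductive Move : Type
  | left : Move
  | stay : Move
  | right : Move

/-- A two-way nondeterministic finite automaton with input alphabet `α` and state set `Q`:
a start state, a set of accepting states, and for every state and scanned tape symbol a set
of possible (new state, head move) pairs. -/
structure TwoNFA (α : Type) (Q : Type) where
  start : Q
  accept : Set Q
  trans : Q → TapeSym α → Set (Q × Move)

namespace TwoNFA

variable {α Q : Type}

/-- The symbol in cell `i` of the tape for input `w`: cell `0` holds the left endmarker,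
cells `1 .. |w|` hold the letters of `w`, and cell `|w| + 1` holds the right endmarker. -/
def tape (w : List α) (i : ℕ) : TapeSym α :=
  if i = 0 then TapeSym.lend
  else match w[i - 1]? with
    | some a => TapeSym.letter a
    | none => TapeSym.rend

/-- One computation step on input `w`. A configuration is a pair (state, head position),
with head positions `0 .. |w| + 1`. The head never leaves these cells. -/
def Step (A : TwoNFA α Q) (w : List α) (c c' : Q × ℕ) : Prop :=
  c.2 ≤ w.length + 1 ∧ c'.2 ≤ w.length + 1 ∧
  (((c'.1, Move.left) ∈ A.trans c.1 (tape w c.2) ∧ c'.2 + 1 = c.2) ∨
   ((c'.1, Move.stay) ∈ A.trans c.1 (tape w c.2) ∧ c'.2 = c.2) ∨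
   ((c'.1, Move.right) ∈ A.trans c.1 (tape w c.2) ∧ c'.2 = c.2 + 1))

/-- `A` accepts `w` when some finite computation from the start state on the left
endmarker reaches an accepting state. -/
def Accepts (A : TwoNFA α Q) (w : List α) : Prop :=
  ∃ q ∈ A.accept, ∃ i : ℕ, Relation.ReflTransGen (A.Step w) (A.start, 0) (q, i)

/-- The language recognized by `A`. -/
def language (A : TwoNFA α Q) : Set (List α) :=
  {w | A.Accepts w}

/-- `A` is one-way (a 1NFA): it never moves its head to the left. -/
def OneWay (A : TwoNFA α Q) : Prop :=
  ∀ (q : Q) (s : TapeSym α) (q' : Q), (q', Move.left) ∉ A.trans q s

end TwoNFA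

end Vale.Agent.Lib.P343
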