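import Mathlib

/-!
Abstract displacement systems on integer positions and a pumping lemma for
traversals: if a system with `k` control states can travel from position `1` to the
first visit of position `M + 1` using only positions `1 .. M` as sources, and `k < M`,
then the same is possible with `M` replaced by `M + k!`.
-/

namespace Vale.Agent.Lib.P343

variable {Q : Type}

/-- A step of the displacement relation `T` whose source position lies in `[lo, hi]`. -/
def IStep (T : Q → Q → ℤ → Prop) (lo hi : ℤ) (c c' : Q × ℤ) : Prop :=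
  lo ≤ c.2 ∧ c.2 ≤ hi ∧ T c.1 c'.1 (c'.2 - c.2)

/-- Paths all of whose sources lie in `[lo, hi]`. -/
def IPath (T : Q → Q → ℤ → Prop) (lo hi : ℤ) : Q × ℤ → Q × ℤ → Prop :=
  Relation.ReflTransGen (IStep T lo hi)

theorem IPath.mono {T : Q → Q → ℤ → Prop} {lo hi lo' hi' : ℤ} (h1 : lo' ≤ lo) (h2 : hi ≤ hi')
    {c c' : Q × ℤ} (h : IPath T lo hi c c') : IPath T lo' hi' c c' := by
  refine Relation.ReflTransGen.mono ?_ _ _ h
  intro a b hab
  exact ⟨le_trans h1 hab.1, le_trans hab.2.1 h2, hab.2.2⟩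

theorem IPath.trans' {T : Q → Q → ℤ → Prop} {lo hi : ℤ} {a b c : Q × ℤ}
    (h1 : IPath T lo hi a b) (h2 : IPath T lo hi b c) : IPath T lo hi a c :=
  Relation.ReflTransGen.trans h1 h2

theorem IPath.shift {T : Q → Q → ℤ → Prop} {lo hi : ℤ} (s : ℤ) {c c' : Q × ℤ}
    (h : IPath T lo hi c c') : IPath T (lo + s) (hi + s) (c.1, c.2 + s) (c'.1, c'.2 + s) := by
  refine Relation.ReflTransGen.lift (fun c : Q × ℤ => (c.1, c.2 + s)) ?_ _ _ h
  intro a b hab
  refine ⟨by simpa using hab.1, by simpa using hab.2.1, ?_⟩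
  have h3 := hab.2.2
  simpa using h3

theorem IPath.mirror {T : Q → Q → ℤ → Prop} {lo hi : ℤ} (m : ℤ) {c c' : Q × ℤ}
    (h : IPath T lo hi c c') :
    IPath (fun p q d => T p q (-d)) (m - hi) (m - lo) (c.1, m - c.2) (c'.1, m - c'.2) := by
  refine Relation.ReflTransGen.lift (fun c : Q × ℤ => (c.1, m - c.2)) ?_ _ _ h
  intro a b hab
  have h4 := hab.1
  have h5 := hab.2.1
  refine ⟨show m - hi ≤ m - a.2 by omega, show m - a.2 ≤ m - lo by omega, ?_⟩
  have h3 := hab.2.2
  have e : -(m - b.2 - (m - a.2)) = b.2 - a.2 := by ring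
  simpa [e] using h3

theorem IPath.eq_of_not_mem {T : Q → Q → ℤ → Prop} {lo hi : ℤ} {a b : Q × ℤ}
    (h : IPath T lo hi a b) (ha : ¬ (lo ≤ a.2 ∧ a.2 ≤ hi)) : a = b := by
  rcases Relation.ReflTransGen.cases_head h with h | ⟨c, hac, _⟩
  · exact h
  · exact absurd ⟨hac.1, hac.2.1⟩ ha

/-- Splitting a path at the first visit of position `j`. -/
theorem IPath.split {T : Q → Q → ℤ → Prop} (hT : ∀ p q d, T p q d → d ≤ 1) {lo j : ℤ}
    {a b : Q × ℤ} (h : IPath T lo j a b) (hb : b.2 = j + 1) (ha : a.2 ≤ j) :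
    ∃ r, IPath T lo (j - 1) a (r, j) ∧ IPath T lo j (r, j) b := by
  revert ha
  induction h using Relation.ReflTransGen.head_induction_on with
  | refl => intro ha; omega
  | head hac hcb ih =>
    rename_i a c
    intro ha
    by_cases hj : a.2 = j
    · refine ⟨a.1, ?_, ?_⟩
      · have e : a = (a.1, j) := Prod.ext rfl hj
        rw [← e]
        exact Relation.ReflTransGen.refl
      · have e : a = (a.1, j) := Prod.ext rfl hj
        rw [← e]
        exact Relation.ReflTransGen.head hac hcb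
    · have hlt : a.2 < j := lt_of_le_of_ne ha hj
      have hc : c.2 ≤ j := by
        have h3 := hT _ _ _ hac.2.2
        omega
      obtain ⟨r, h1, h2⟩ := ih hc
      exact ⟨r, Relation.ReflTransGen.head ⟨hac.1, by omega, hac.2.2⟩ h1, h2⟩

/-- First-visit states along a traversal. -/
theorem IPath.chain {T : Q → Q → ℤ → Prop} (hT : ∀ p q d, T p q d → d ≤ 1) (p : Q) :
    ∀ (M : ℕ) (q : Q), IPath T 1 (M : ℤ) (p, 1) (q, (M : ℤ) + 1) →
      ∃ f : ℕ → Q, f 1 = p ∧ f (M + 1) = q ∧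
        ∀ j : ℕ, 1 ≤ j → j ≤ M → IPath T 1 (j : ℤ) (f j, (j : ℤ)) (f (j + 1), (j : ℤ) + 1) := by
  intro M
  induction M with
  | zero =>
    intro q h
    have e := IPath.eq_of_not_mem h (by simp)
    have e1 : p = q := congrArg Prod.fst e
    refine ⟨fun _ => p, rfl, e1, ?_⟩
    intro j h1 h2
    omega
  | succ M ih =>
    intro q h
    have hs := IPath.split hT h (by push_cast; ring) (by push_cast; omega)
    obtain ⟨r, h1, h2⟩ := hs
    have h1' : IPath T 1 (M : ℤ) (p, 1) (r, (M : ℤ) + 1) := by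
      have e : ((M + 1 : ℕ) : ℤ) - 1 = (M : ℤ) := by push_cast; ring
      have e2 : ((M + 1 : ℕ) : ℤ) = (M : ℤ) + 1 := by push_cast; ring
      rw [e] at h1
      rw [e2] at h1
      exact h1
    obtain ⟨f, hf1, hf2, hf3⟩ := ih r h1'
    refine ⟨Function.update f (M + 2) q, ?_, ?_, ?_⟩
    · rw [Function.update_of_ne (by omega)]
      exact hf1
    · simp
    · intro j hj1 hj2
      rcases Nat.lt_or_ge j (M + 1) with hlt | hge
      · rw [Function.update_of_ne (by omega), Function.update_of_ne (by omega)]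
        exact hf3 j hj1 (by omega)
      · have hj : j = M + 1 := by omega
        subst hj
        rw [Function.update_of_ne (by omega)]
        have e3 : M + 1 + 1 = M + 2 := by omega
        rw [e3, Function.update_self, hf2]
        exact h2

theorem IPath.links {T : Q → Q → ℤ → Prop} {M : ℕ} {f : ℕ → Q}
    (hf : ∀ j : ℕ, 1 ≤ j → j ≤ M → IPath T 1 (j : ℤ) (f j, (j : ℤ)) (f (j + 1), (j : ℤ) + 1))
    (a : ℕ) (ha : 1 ≤ a) :
    ∀ b : ℕ, a ≤ b → b ≤ M + 1 → IPath T 1 ((b : ℤ) - 1) (f a, (a : ℤ)) (f b, (b : ℤ)) := by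
  intro b hab
  induction b, hab using Nat.le_induction with
  | base => intro _; exact Relation.ReflTransGen.refl
  | succ b hab ih =>
    intro hb
    have h1 := ih (by omega)
    have h2 := hf b (by omega) (by omega)
    have e : ((b + 1 : ℕ) : ℤ) - 1 = (b : ℤ) := by push_cast; ring
    have e2 : ((b + 1 : ℕ) : ℤ) = (b : ℤ) + 1 := by push_cast; ring
    rw [e, e2]
    exact IPath.trans' (IPath.mono le_rfl (by omega) h1) h2

/-- The pumping lemma for traversals. -/
theorem IPath.pump [Fintype Q] {T : Q → Q → ℤ → Prop} (hT : ∀ p q d, T p q d → d ≤ 1)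
    {M : ℕ} (hM : Fintype.card Q < M) {p q : Q}
    (h : IPath T 1 (M : ℤ) (p, 1) (q, (M : ℤ) + 1)) :
    ∃ d : ℕ, 1 ≤ d ∧ d ≤ Fintype.card Q ∧
      ∀ t : ℕ, IPath T 1 ((M : ℤ) + t * d) (p, 1) (q, (M : ℤ) + 1 + t * d) := by
  obtain ⟨f, hf1, hf2, hf3⟩ := IPath.chain hT p M q h
  obtain ⟨x, y, hxy, hg⟩ : ∃ x y : Fin (Fintype.card Q + 1), x < y ∧ f (x.val + 1) = f (y.val + 1) := by
    obtain ⟨x, y, hne, he⟩ := Fintype.exists_ne_map_eq_of_card_lt
      (fun x : Fin (Fintype.card Q + 1) => f (x.val + 1)) (by simp)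
    rcases lt_or_gt_of_ne hne with hlt | hgt
    · exact ⟨x, y, hlt, he⟩
    · exact ⟨y, x, hgt, he.symm⟩
  have hx := x.isLt
  have hy := y.isLt
  have hxy' : x.val < y.val := hxy
  set i := x.val + 1 with hi
  set j := y.val + 1 with hj
  refine ⟨j - i, by omega, by omega, ?_⟩
  have hd : ((j - i : ℕ) : ℤ) = (j : ℤ) - (i : ℤ) := by
    rw [Nat.cast_sub (by omega)]
  have hloop : IPath T 1 ((j : ℤ) - 1) (f i, (i : ℤ)) (f i, (j : ℤ)) := by
    have h1 := IPath.links hf3 i (by omega) j (by omega) (by omega)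
    rw [← hg] at h1
    exact h1
  have hiter : ∀ t : ℕ, IPath T 1 ((i : ℤ) + t * ((j : ℤ) - i) - 1) (f i, (i : ℤ))
      (f i, (i : ℤ) + t * ((j : ℤ) - i)) := by
    intro t
    induction t with
    | zero =>
      have e : (i : ℤ) + ((0 : ℕ) : ℤ) * ((j : ℤ) - i) = (i : ℤ) := by push_cast; ring
      rw [e]
      exact Relation.ReflTransGen.refl
    | succ t ih =>
      have h2 := IPath.shift ((t : ℤ) * ((j : ℤ) - i)) hloop
      have e1 : (j : ℤ) + (t : ℤ) * ((j : ℤ) - i) = (i : ℤ) + ((t + 1 : ℕ) : ℤ) * ((j : ℤ) - i) := by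
        push_cast; ring
      simp only [e1] at h2
      have hji : (i : ℤ) < (j : ℤ) := by exact_mod_cast (by omega : i < j)
      have ht0 : (0 : ℤ) ≤ (t : ℤ) * ((j : ℤ) - i) := by
        apply mul_nonneg
        · exact_mod_cast Nat.zero_le t
        · omega
      refine IPath.trans' (IPath.mono le_rfl ?_ ih) (IPath.mono ?_ ?_ h2)
      · push_cast
        nlinarith
      · omega
      · push_cast
        nlinarith
  have hpre : IPath T 1 ((i : ℤ) - 1) (p, 1) (f i, (i : ℤ)) := by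
    have h1 := IPath.links hf3 1 le_rfl i (by omega) (by omega)
    rw [hf1] at h1
    exact_mod_cast h1
  have htail : IPath T 1 (M : ℤ) (f i, (j : ℤ)) (q, (M : ℤ) + 1) := by
    have h1 := IPath.links hf3 j (by omega) (M + 1) (by omega) le_rfl
    rw [hf2, ← hg] at h1
    have e : ((M + 1 : ℕ) : ℤ) - 1 = (M : ℤ) := by push_cast; ring
    have e2 : ((M + 1 : ℕ) : ℤ) = (M : ℤ) + 1 := by push_cast; ring
    rw [e, e2] at h1
    exact h1
  intro t
  rw [hd]
  have h3 := IPath.shift ((t : ℤ) * ((j : ℤ) - i)) htail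
  have e1 : (j : ℤ) + (t : ℤ) * ((j : ℤ) - i) = (i : ℤ) + ((t + 1 : ℕ) : ℤ) * ((j : ℤ) - i) := by
    push_cast; ring
  simp only [e1] at h3
  have h4 := hiter (t + 1)
  have hji : (i : ℤ) < (j : ℤ) := by exact_mod_cast (by omega : i < j)
  have hjM : (j : ℤ) ≤ (M : ℤ) := by exact_mod_cast (by omega : j ≤ M)
  have hi1 : (1 : ℤ) ≤ (i : ℤ) := by exact_mod_cast (by omega : 1 ≤ i)
  have ht0 : (0 : ℤ) ≤ (t : ℤ) * ((j : ℤ) - i) := by
    apply mul_nonneg
    · exact_mod_cast Nat.zero_le t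
    · omega
  refine IPath.trans' (IPath.mono le_rfl ?_ hpre) (IPath.trans' (IPath.mono le_rfl ?_ h4)
    (IPath.mono ?_ le_rfl h3))
  · omega
  · push_cast
    nlinarith
  · omega

/-- Pumping by the factorial of the number of states. -/
theorem IPath.pump_factorial [Fintype Q] {T : Q → Q → ℤ → Prop} (hT : ∀ p q d, T p q d → d ≤ 1)
    {M : ℕ} (hM : Fintype.card Q < M) {p q : Q}
    (h : IPath T 1 (M : ℤ) (p, 1) (q, (M : ℤ) + 1)) :
    IPath T 1 ((M : ℤ) + (Fintype.card Q).factorial) (p, 1)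
      (q, (M : ℤ) + 1 + (Fintype.card Q).factorial) := by
  obtain ⟨d, hd1, hd2, hd3⟩ := IPath.pump hT hM h
  obtain ⟨t, ht⟩ := Nat.dvd_factorial (by omega : 0 < d) hd2
  have h1 := hd3 t
  have e : ((Fintype.card Q).factorial : ℤ) = (t : ℤ) * (d : ℤ) := by
    rw [ht]; push_cast; ring
  rw [e]
  exact h1

end Vale.Agent.Lib.P343
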