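import Vale.Agent.Lib.P343.Defs
import Vale.Agent.Lib.P343.Pump

/-!
Two-way automata on one-letter inputs: if a 2NFA with `k` states accepts the unary word
of length `M > k`, then it also accepts the unary word of length `M + k!`.
-/

namespace Vale.Agent.Lib.P343

open TwoNFA

variable {Q : Type}

/-- The one-letter word of length `m`. -/
def uw (m : ℕ) : List Unit := List.replicate m ()

theorem uw_length (m : ℕ) : (uw m).length = m := by simp [uw]

theorem tape_uw_zero (m : ℕ) : tape (uw m) 0 = TapeSym.lend := by simp [tape]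

theorem tape_uw_letter {m i : ℕ} (h1 : 1 ≤ i) (h2 : i ≤ m) :
    tape (uw m) i = TapeSym.letter () := by
  unfold tape uw
  rw [if_neg (by omega), List.getElem?_replicate, if_pos (by omega)]

theorem tape_uw_rend {m i : ℕ} (h : m < i) : tape (uw m) i = TapeSym.rend := by
  unfold tape uw
  rw [if_neg (by omega), List.getElem?_replicate, if_neg (by omega)]

/-- The displacement relation of `B` on the input letter. -/
def letterRel (B : TwoNFA Unit Q) (p q : Q) (d : ℤ) : Prop :=
  (d = -1 ∧ (q, Move.left) ∈ B.trans p (TapeSym.letter ())) ∨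
  (d = 0 ∧ (q, Move.stay) ∈ B.trans p (TapeSym.letter ())) ∨
  (d = 1 ∧ (q, Move.right) ∈ B.trans p (TapeSym.letter ()))

theorem letterRel_le_one (B : TwoNFA Unit Q) (p q : Q) (d : ℤ) (h : letterRel B p q d) :
    d ≤ 1 := by
  rcases h with h | h | h <;> omega

theorem letterRel_neg_le_one (B : TwoNFA Unit Q) (p q : Q) (d : ℤ)
    (h : letterRel B p q (-d)) : d ≤ 1 := by
  rcases h with h | h | h <;> omega

theorem IPath.imp {T T2 : Q → Q → ℤ → Prop} (hT : ∀ p q d, T p q d → T2 p q d) {lo hi : ℤ}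
    {c c' : Q × ℤ} (h : IPath T lo hi c c') : IPath T2 lo hi c c' := by
  refine Relation.ReflTransGen.mono ?_ _ _ h
  intro a b hab
  exact ⟨hab.1, hab.2.1, hT _ _ _ hab.2.2⟩

theorem step_of_istep {B : TwoNFA Unit Q} {m : ℕ} {lo hi : ℤ} (hlo : 1 ≤ lo) (hhi : hi ≤ m)
    {c c' : Q × ℤ} (h : IStep (letterRel B) lo hi c c') :
    B.Step (uw m) (c.1, c.2.toNat) (c'.1, c'.2.toNat) := by
  obtain ⟨h1, h2, h3⟩ := h
  have ht : tape (uw m) c.2.toNat = TapeSym.letter () := tape_uw_letter (by omega) (by omega)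
  unfold TwoNFA.Step
  rw [uw_length]
  simp only [ht]
  rcases h3 with ⟨hd, h3⟩ | ⟨hd, h3⟩ | ⟨hd, h3⟩
  · exact ⟨by omega, by omega, Or.inl ⟨h3, by omega⟩⟩
  · exact ⟨by omega, by omega, Or.inr (Or.inl ⟨h3, by omega⟩)⟩
  · exact ⟨by omega, by omega, Or.inr (Or.inr ⟨h3, by omega⟩)⟩

theorem steps_of_ipath {B : TwoNFA Unit Q} {m : ℕ} {lo hi : ℤ} (hlo : 1 ≤ lo) (hhi : hi ≤ m)
    {c c' : Q × ℤ} (h : IPath (letterRel B) lo hi c c') :
    Relation.ReflTransGen (B.Step (uw m)) (c.1, c.2.toNat) (c'.1, c'.2.toNat) := by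
  refine Relation.ReflTransGen.lift (fun c : Q × ℤ => (c.1, c.2.toNat)) ?_ _ _ h
  intro a b hab
  exact step_of_istep hlo hhi hab

theorem istep_of_step {B : TwoNFA Unit Q} {m : ℕ} {c c' : Q × ℕ} (h : B.Step (uw m) c c')
    (h1 : 1 ≤ c.2) (h2 : c.2 ≤ m) :
    IStep (letterRel B) 1 m (c.1, (c.2 : ℤ)) (c'.1, (c'.2 : ℤ)) := by
  have ht : tape (uw m) c.2 = TapeSym.letter () := tape_uw_letter h1 h2
  unfold TwoNFA.Step at h
  rw [ht] at h
  obtain ⟨_, _, h3⟩ := h
  refine ⟨show (1 : ℤ) ≤ (c.2 : ℤ) by exact_mod_cast h1,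
    show (c.2 : ℤ) ≤ (m : ℤ) by exact_mod_cast h2, ?_⟩
  rcases h3 with ⟨h3, hd⟩ | ⟨h3, hd⟩ | ⟨h3, hd⟩
  · exact Or.inl ⟨by simp only; omega, h3⟩
  · exact Or.inr (Or.inl ⟨by simp only; omega, h3⟩)
  · exact Or.inr (Or.inr ⟨by simp only; omega, h3⟩)

/-- A segment that starts on the left endmarker can be replayed on any longer input. -/
theorem left_transfer {B : TwoNFA Unit Q} {M M' : ℕ} {p : Q} {c1 : Q × ℕ}
    (hs : B.Step (uw M) (p, 0) c1) {lo hi : ℤ} (hlo : 1 ≤ lo) (hhi : hi ≤ M') {c : Q × ℤ}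
    (hp : IPath (letterRel B) lo hi (c1.1, (c1.2 : ℤ)) c) :
    Relation.ReflTransGen (B.Step (uw M')) (p, 0) (c.1, c.2.toNat) := by
  have h1 : B.Step (uw M') (p, 0) c1 := by
    unfold TwoNFA.Step at hs ⊢
    rw [uw_length] at hs ⊢
    simp only [tape_uw_zero] at hs ⊢
    obtain ⟨_, _, h3⟩ := hs
    rcases h3 with ⟨h3, hd⟩ | ⟨h3, hd⟩ | ⟨h3, hd⟩
    · omega
    · exact ⟨by omega, by omega, Or.inr (Or.inl ⟨h3, hd⟩)⟩
    · exact ⟨by omega, by omega, Or.inr (Or.inr ⟨h3, hd⟩)⟩
  have h2 := steps_of_ipath (m := M') hlo hhi hp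
  simp only [Int.toNat_natCast] at h2
  exact Relation.ReflTransGen.head h1 h2

/-- A segment that starts on the right endmarker can be replayed, shifted, on a longer input. -/
theorem right_transfer {B : TwoNFA Unit Q} {M D : ℕ} {p : Q} {c1 : Q × ℕ}
    (hs : B.Step (uw M) (p, M + 1) c1) {lo hi : ℤ} (hlo : 1 ≤ lo) (hhi : hi ≤ (M : ℤ) + D)
    {c : Q × ℤ} (hp : IPath (letterRel B) lo hi (c1.1, (c1.2 : ℤ) + D) c) :
    Relation.ReflTransGen (B.Step (uw (M + D))) (p, M + D + 1) (c.1, c.2.toNat) := by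
  have h1 : B.Step (uw (M + D)) (p, M + D + 1) (c1.1, c1.2 + D) := by
    unfold TwoNFA.Step at hs ⊢
    rw [uw_length] at hs ⊢
    have e1 : tape (uw M) (M + 1) = TapeSym.rend := tape_uw_rend (by omega)
    have e2 : tape (uw (M + D)) (M + D + 1) = TapeSym.rend := tape_uw_rend (by omega)
    simp only [e1] at hs
    simp only [e2]
    obtain ⟨_, hb, h3⟩ := hs
    rcases h3 with ⟨h3, hd⟩ | ⟨h3, hd⟩ | ⟨h3, hd⟩
    · exact ⟨by omega, by omega, Or.inl ⟨h3, by omega⟩⟩
    · exact ⟨by omega, by omega, Or.inr (Or.inl ⟨h3, by omega⟩)⟩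
    · omega
  have h2 := steps_of_ipath (m := M + D) hlo (by push_cast; exact hhi) hp
  have e : ((c1.2 : ℤ) + (D : ℤ)).toNat = c1.2 + D := by omega
  simp only [e] at h2
  exact Relation.ReflTransGen.head h1 h2

/-- A left-to-right traversal on an input longer than the number of states can be pumped. -/
theorem lr_transfer [Fintype Q] {B : TwoNFA Unit Q} {M : ℕ} (hM : Fintype.card Q < M) {p q : Q}
    {c1 : Q × ℕ} (hs : B.Step (uw M) (p, 0) c1)
    (hp : IPath (letterRel B) 1 (M : ℤ) (c1.1, (c1.2 : ℤ)) (q, (M : ℤ) + 1)) :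
    Relation.ReflTransGen (B.Step (uw (M + (Fintype.card Q).factorial))) (p, 0)
      (q, M + (Fintype.card Q).factorial + 1) := by
  have hc : c1.2 = 1 := by
    by_contra hne
    have h0 : c1.2 = 0 := by
      unfold TwoNFA.Step at hs
      obtain ⟨_, _, h3⟩ := hs
      rcases h3 with ⟨_, hd⟩ | ⟨_, hd⟩ | ⟨_, hd⟩ <;> simp only at hd <;> omega
    have e := IPath.eq_of_not_mem hp (by simp only [h0]; omega)
    have e2 : (c1.2 : ℤ) = (M : ℤ) + 1 := congrArg Prod.snd e
    omega
  have hp1 : IPath (letterRel B) 1 (M : ℤ) (c1.1, 1) (q, (M : ℤ) + 1) := by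
    have e : ((c1.2 : ℕ) : ℤ) = 1 := by exact_mod_cast hc
    rw [e] at hp
    exact hp
  have h2 := IPath.pump_factorial (letterRel_le_one B) hM hp1
  have h3 := left_transfer (M' := M + (Fintype.card Q).factorial) (c1 := c1) hs (lo := 1)
    (hi := (M : ℤ) + (Fintype.card Q).factorial) le_rfl (by push_cast; exact le_rfl)
    (c := (q, (M : ℤ) + 1 + (Fintype.card Q).factorial))
    (by
      have e : ((c1.2 : ℕ) : ℤ) = 1 := by exact_mod_cast hc
      rw [e]
      exact h2)
  have e3 : ((M : ℤ) + 1 + ((Fintype.card Q).factorial : ℤ)).toNat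
      = M + (Fintype.card Q).factorial + 1 := by omega
  simp only [e3] at h3
  exact h3

/-- A right-to-left traversal on an input longer than the number of states can be pumped. -/
theorem rl_transfer [Fintype Q] {B : TwoNFA Unit Q} {M : ℕ} (hM : Fintype.card Q < M) {p q : Q}
    {c1 : Q × ℕ} (hs : B.Step (uw M) (p, M + 1) c1)
    (hp : IPath (letterRel B) 1 (M : ℤ) (c1.1, (c1.2 : ℤ)) (q, 0)) :
    Relation.ReflTransGen (B.Step (uw (M + (Fintype.card Q).factorial)))
      (p, M + (Fintype.card Q).factorial + 1) (q, 0) := by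
  have hc : c1.2 = M := by
    by_contra hne
    have h0 : c1.2 = M + 1 := by
      unfold TwoNFA.Step at hs
      rw [uw_length] at hs
      obtain ⟨_, hb, h3⟩ := hs
      rcases h3 with ⟨_, hd⟩ | ⟨_, hd⟩ | ⟨_, hd⟩ <;> simp only at hd hb <;> omega
    have e := IPath.eq_of_not_mem hp (by simp only [h0]; push_cast; omega)
    have e2 : (c1.2 : ℤ) = 0 := congrArg Prod.snd e
    omega
  have e : ((c1.2 : ℕ) : ℤ) = (M : ℤ) := by exact_mod_cast hc
  rw [e] at hp
  have hm := IPath.mirror ((M : ℤ) + 1) hp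
  have hm1 : IPath (fun p q d => letterRel B p q (-d)) 1 (M : ℤ) (c1.1, 1) (q, (M : ℤ) + 1) := by
    have e1 : (M : ℤ) + 1 - (M : ℤ) = 1 := by ring
    have e2 : (M : ℤ) + 1 - 1 = (M : ℤ) := by ring
    have e3 : (M : ℤ) + 1 - 0 = (M : ℤ) + 1 := by ring
    simp only [e1, e2, e3] at hm
    exact hm
  have h2 := IPath.pump_factorial (letterRel_neg_le_one B) hM hm1
  have hm2 := IPath.mirror ((M : ℤ) + (Fintype.card Q).factorial + 1) h2
  have hm3 : IPath (letterRel B) 1 ((M : ℤ) + (Fintype.card Q).factorial)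
      (c1.1, (M : ℤ) + (Fintype.card Q).factorial) (q, 0) := by
    have e1 : (M : ℤ) + (Fintype.card Q).factorial + 1 - ((M : ℤ) + (Fintype.card Q).factorial)
        = 1 := by ring
    have e2 : (M : ℤ) + (Fintype.card Q).factorial + 1 - 1
        = (M : ℤ) + (Fintype.card Q).factorial := by ring
    have e3 : (M : ℤ) + (Fintype.card Q).factorial + 1 - ((M : ℤ) + 1 + (Fintype.card Q).factorial)
        = 0 := by ring
    simp only [e1, e2, e3] at hm2
    refine IPath.imp ?_ hm2
    intro p q d hd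
    simpa using hd
  have h3 := right_transfer (D := (Fintype.card Q).factorial) (c1 := c1) hs (lo := 1)
    (hi := (M : ℤ) + (Fintype.card Q).factorial) le_rfl le_rfl (c := (q, 0))
    (by rw [e]; exact hm3)
  simpa using h3

/-- The invariant relating reachable configurations on the input of length `M` with
reachable configurations on the input of length `M + D`. -/
def Seg (B : TwoNFA Unit Q) (M D : ℕ) (c : Q × ℕ) : Prop :=
  (∃ p : Q, Relation.ReflTransGen (B.Step (uw (M + D))) (B.start, 0) (p, 0) ∧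
    (c = (p, 0) ∨ ∃ c1 : Q × ℕ, B.Step (uw M) (p, 0) c1 ∧
      IPath (letterRel B) 1 (M : ℤ) (c1.1, (c1.2 : ℤ)) (c.1, (c.2 : ℤ)))) ∨
  (∃ p : Q, Relation.ReflTransGen (B.Step (uw (M + D))) (B.start, 0) (p, M + D + 1) ∧
    (c = (p, M + 1) ∨ ∃ c1 : Q × ℕ, B.Step (uw M) (p, M + 1) c1 ∧
      IPath (letterRel B) 1 (M : ℤ) (c1.1, (c1.2 : ℤ)) (c.1, (c.2 : ℤ))))

theorem seg_of_reach [Fintype Q] {B : TwoNFA Unit Q} {M : ℕ} (hM : Fintype.card Q < M)
    {c : Q × ℕ} (h : Relation.ReflTransGen (B.Step (uw M)) (B.start, 0) c) :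
    Seg B M (Fintype.card Q).factorial c := by
  induction h with
  | refl => exact Or.inl ⟨B.start, Relation.ReflTransGen.refl, Or.inl rfl⟩
  | tail hab hbc ih =>
    rename_i b c
    have hbound : b.2 ≤ M + 1 := by
      have h1 := hbc.1
      rw [uw_length] at h1
      exact h1
    rcases ih with ⟨p, hp, hb | ⟨c1, hs, hpath⟩⟩ | ⟨p, hp, hb | ⟨c1, hs, hpath⟩⟩
    · subst hb
      exact Or.inl ⟨p, hp, Or.inr ⟨c, hbc, Relation.ReflTransGen.refl⟩⟩
    · by_cases hb1 : 1 ≤ b.2 ∧ b.2 ≤ M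
      · exact Or.inl ⟨p, hp, Or.inr ⟨c1, hs,
          Relation.ReflTransGen.tail hpath (istep_of_step hbc hb1.1 hb1.2)⟩⟩
      · rcases Nat.eq_zero_or_pos b.2 with h0 | hpos
        · have hr := left_transfer (M' := M + (Fintype.card Q).factorial) hs (lo := 1)
            (hi := (M : ℤ)) le_rfl (by push_cast; omega) hpath
          have hb' : b = (b.1, 0) := Prod.ext rfl h0
          simp only [Int.toNat_natCast, h0] at hr
          rw [hb'] at hbc
          exact Or.inl ⟨b.1, Relation.ReflTransGen.trans hp hr,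
            Or.inr ⟨c, hbc, Relation.ReflTransGen.refl⟩⟩
        · have hM1 : b.2 = M + 1 := by omega
          have hb' : b = (b.1, M + 1) := Prod.ext rfl hM1
          have hpath' : IPath (letterRel B) 1 (M : ℤ) (c1.1, (c1.2 : ℤ)) (b.1, (M : ℤ) + 1) := by
            have e : ((b.2 : ℕ) : ℤ) = (M : ℤ) + 1 := by exact_mod_cast hM1
            rw [e] at hpath
            exact hpath
          have hr := lr_transfer hM hs hpath'
          rw [hb'] at hbc
          exact Or.inr ⟨b.1, Relation.ReflTransGen.trans hp hr,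
            Or.inr ⟨c, hbc, Relation.ReflTransGen.refl⟩⟩
    · subst hb
      exact Or.inr ⟨p, hp, Or.inr ⟨c, hbc, Relation.ReflTransGen.refl⟩⟩
    · by_cases hb1 : 1 ≤ b.2 ∧ b.2 ≤ M
      · exact Or.inr ⟨p, hp, Or.inr ⟨c1, hs,
          Relation.ReflTransGen.tail hpath (istep_of_step hbc hb1.1 hb1.2)⟩⟩
      · rcases Nat.eq_zero_or_pos b.2 with h0 | hpos
        · have hb' : b = (b.1, 0) := Prod.ext rfl h0
          have hpath' : IPath (letterRel B) 1 (M : ℤ) (c1.1, (c1.2 : ℤ)) (b.1, 0) := by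
            have e : ((b.2 : ℕ) : ℤ) = 0 := by exact_mod_cast h0
            rw [e] at hpath
            exact hpath
          have hr := rl_transfer hM hs hpath'
          rw [hb'] at hbc
          exact Or.inl ⟨b.1, Relation.ReflTransGen.trans hp hr,
            Or.inr ⟨c, hbc, Relation.ReflTransGen.refl⟩⟩
        · have hM1 : b.2 = M + 1 := by omega
          have hb' : b = (b.1, M + 1) := Prod.ext rfl hM1
          have hsh := IPath.shift ((Fintype.card Q).factorial : ℤ) hpath
          have hr := right_transfer (D := (Fintype.card Q).factorial) hs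
            (lo := 1 + ((Fintype.card Q).factorial : ℤ))
            (hi := (M : ℤ) + ((Fintype.card Q).factorial : ℤ))
            (by have := Nat.zero_le (Fintype.card Q).factorial; omega) le_rfl hsh
          have e : (((b.2 : ℕ) : ℤ) + ((Fintype.card Q).factorial : ℤ)).toNat
              = M + (Fintype.card Q).factorial + 1 := by omega
          simp only [e] at hr
          rw [hb'] at hbc
          exact Or.inr ⟨b.1, Relation.ReflTransGen.trans hp hr,
            Or.inr ⟨c, hbc, Relation.ReflTransGen.refl⟩⟩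

/-- The pumping lemma for two-way nondeterministic automata on one-letter inputs. -/
theorem accepts_pump [Fintype Q] (B : TwoNFA Unit Q) {M : ℕ} (hM : Fintype.card Q < M)
    (h : B.Accepts (uw M)) : B.Accepts (uw (M + (Fintype.card Q).factorial)) := by
  obtain ⟨q, hq, i, hr⟩ := h
  rcases seg_of_reach hM hr with ⟨p, hp, hb | ⟨c1, hs, hpath⟩⟩ | ⟨p, hp, hb | ⟨c1, hs, hpath⟩⟩
  · have e : q = p := congrArg Prod.fst hb
    subst e
    exact ⟨q, hq, 0, hp⟩
  · have h2 := left_transfer (M' := M + (Fintype.card Q).factorial) hs (lo := 1)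
      (hi := (M : ℤ)) le_rfl (by push_cast; omega) hpath
    exact ⟨q, hq, _, Relation.ReflTransGen.trans hp h2⟩
  · have e : q = p := congrArg Prod.fst hb
    subst e
    exact ⟨q, hq, _, hp⟩
  · have hsh := IPath.shift ((Fintype.card Q).factorial : ℤ) hpath
    have h2 := right_transfer (D := (Fintype.card Q).factorial) hs
      (lo := 1 + ((Fintype.card Q).factorial : ℤ))
      (hi := (M : ℤ) + ((Fintype.card Q).factorial : ℤ))
      (by have := Nat.zero_le (Fintype.card Q).factorial; omega) le_rfl hsh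
    exact ⟨q, hq, _, Relation.ReflTransGen.trans hp h2⟩

end Vale.Agent.Lib.P343
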