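import Vale.Agent.Lib.P343.Unary

/-!
The witness: a one-way nondeterministic automaton with `n + 1` states over a one-letter
alphabet accepting exactly the words whose length is a sum of copies of `n - 1` and `n`.
-/

namespace Vale.Agent.Lib.P343

open TwoNFA

/-- States `0 .. n - 1` form a cycle of length `n` with a shortcut from `n - 2` to `0`;
state `n` is the only accepting state and is entered on the right endmarker from state `0`. -/
def frob (n : ℕ) : TwoNFA Unit (Fin (n + 1)) where
  start := 0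
  accept := {q | q.val = n}
  trans := fun q s =>
    match s with
    | TapeSym.lend => {x | x.1 = q ∧ x.2 = Move.right}
    | TapeSym.letter _ => {x | x.2 = Move.right ∧ q.val < n ∧
        ((x.1.val = q.val + 1 ∧ x.1.val < n) ∨ (q.val + 1 = n ∧ x.1.val = 0) ∨
         (q.val + 2 = n ∧ x.1.val = 0))}
    | TapeSym.rend => {x | x.2 = Move.stay ∧ q.val = 0 ∧ x.1.val = n}

theorem frob_oneWay (n : ℕ) : (frob n).OneWay := by
  intro q s q'
  cases s <;> simp [frob]

theorem frob_inv {n m : ℕ} (hn : 1 ≤ n) {c : Fin (n + 1) × ℕ}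
    (h : Relation.ReflTransGen ((frob n).Step (uw m)) ((frob n).start, 0) c) :
    (c.1.val < n → ∃ i j : ℕ, i * (n - 1) + j * n + c.1.val = c.2 - 1) ∧
    (c.1.val = n → ∃ i j : ℕ, i * (n - 1) + j * n = m) := by
  induction h with
  | refl =>
    refine ⟨fun _ => ⟨0, 0, by simp [frob]⟩, fun h0 => ?_⟩
    simp [frob] at h0
    omega
  | tail hab hbc ih =>
    rename_i b c
    obtain ⟨ih1, ih2⟩ := ih
    unfold TwoNFA.Step at hbc
    rw [uw_length] at hbc
    obtain ⟨hb, hc, hstep⟩ := hbc
    rcases Nat.eq_zero_or_pos b.2 with h0 | hpos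
    · have ht : tape (uw m) b.2 = TapeSym.lend := by rw [h0]; exact tape_uw_zero m
      rw [ht] at hstep
      simp only [frob, Set.mem_ofPred_eq] at hstep
      rcases hstep with ⟨⟨_, h3⟩, _⟩ | ⟨⟨_, h3⟩, _⟩ | ⟨⟨h3, _⟩, hd⟩
      · exact absurd h3 (by simp)
      · exact absurd h3 (by simp)
      · rw [h3, hd, h0]
        refine ⟨fun hlt => ?_, ih2⟩
        obtain ⟨i, j, hij⟩ := ih1 hlt
        exact ⟨i, j, by omega⟩
    · by_cases hm : b.2 ≤ m
      · have ht : tape (uw m) b.2 = TapeSym.letter () := tape_uw_letter hpos hm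
        rw [ht] at hstep
        simp only [frob, Set.mem_ofPred_eq] at hstep
        rcases hstep with ⟨⟨h3, _⟩, _⟩ | ⟨⟨h3, _⟩, _⟩ | ⟨⟨_, hlt, h3⟩, hd⟩
        · exact absurd h3 (by simp)
        · exact absurd h3 (by simp)
        · obtain ⟨i, j, hij⟩ := ih1 hlt
          rcases h3 with ⟨h4, h5⟩ | ⟨h4, h5⟩ | ⟨h4, h5⟩
          · exact ⟨fun _ => ⟨i, j, by omega⟩, fun h6 => by omega⟩
          · refine ⟨fun _ => ⟨i, j + 1, ?_⟩, fun h6 => by omega⟩
            have e : (j + 1) * n = j * n + n := by ring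
            omega
          · refine ⟨fun _ => ⟨i + 1, j, ?_⟩, fun h6 => by omega⟩
            have e : (i + 1) * (n - 1) = i * (n - 1) + (n - 1) := by ring
            omega
      · have ht : tape (uw m) b.2 = TapeSym.rend := tape_uw_rend (by omega)
        rw [ht] at hstep
        simp only [frob, Set.mem_ofPred_eq] at hstep
        rcases hstep with ⟨⟨h3, _⟩, _⟩ | ⟨⟨_, h3, h4⟩, hd⟩ | ⟨⟨h3, _⟩, _⟩
        · exact absurd h3 (by simp)
        · refine ⟨fun h6 => by omega, fun _ => ?_⟩
          obtain ⟨i, j, hij⟩ := ih1 (by omega)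
          exact ⟨i, j, by omega⟩
        · exact absurd h3 (by simp)

theorem frob_accepts_imp {n m : ℕ} (hn : 1 ≤ n) (h : (frob n).Accepts (uw m)) :
    ∃ i j : ℕ, i * (n - 1) + j * n = m := by
  obtain ⟨q, hq, i, hr⟩ := h
  exact (frob_inv hn hr).2 hq

theorem frob_reach {n m : ℕ} (hn : 2 ≤ n) :
    ∀ (t : ℕ) (q : Fin (n + 1)) (i j : ℕ), i * (n - 1) + j * n + q.val = t → q.val < n → t ≤ m →
      Relation.ReflTransGen ((frob n).Step (uw m)) ((frob n).start, 0) (q, t + 1) := by
  intro t
  induction t with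
  | zero =>
    intro q i j hij hq hm
    have hq0 : q = (frob n).start := by
      apply Fin.ext
      simp only [frob, Fin.val_zero]
      omega
    rw [hq0]
    refine Relation.ReflTransGen.single ?_
    unfold TwoNFA.Step
    rw [uw_length, tape_uw_zero]
    refine ⟨by omega, by omega, Or.inr (Or.inr ⟨?_, rfl⟩)⟩
    simp [frob]
  | succ t ih =>
    intro q i j hij hq hm
    have hstep : ∀ q0 : Fin (n + 1), q0.val < n →
        ((q.val = q0.val + 1 ∧ q.val < n) ∨ (q0.val + 1 = n ∧ q.val = 0) ∨
         (q0.val + 2 = n ∧ q.val = 0)) →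
        (frob n).Step (uw m) (q0, t + 1) (q, t + 1 + 1) := by
      intro q0 hq0 hcase
      unfold TwoNFA.Step
      rw [uw_length, tape_uw_letter (by omega) (by omega)]
      refine ⟨by omega, by omega, Or.inr (Or.inr ⟨?_, rfl⟩)⟩
      simp only [frob, Set.mem_ofPred_eq]
      exact ⟨trivial, hq0, hcase⟩
    rcases Nat.eq_zero_or_pos q.val with hz | hpos
    · rcases Nat.eq_zero_or_pos j with hj | hj
      · have hi : 1 ≤ i := by
          rcases Nat.eq_zero_or_pos i with hi | hi
          · subst hi; subst hj; omega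
          · exact hi
        obtain ⟨i', rfl⟩ : ∃ i' : ℕ, i = i' + 1 := ⟨i - 1, by omega⟩
        have e : (i' + 1) * (n - 1) = i' * (n - 1) + (n - 1) := by ring
        have h1 := ih ⟨n - 2, by omega⟩ i' j (by simp only; subst hj; omega) (by simp only; omega)
          (by omega)
        exact Relation.ReflTransGen.tail h1
          (hstep ⟨n - 2, by omega⟩ (by simp only; omega) (Or.inr (Or.inr ⟨by simp only; omega, hz⟩)))
      · obtain ⟨j', rfl⟩ : ∃ j' : ℕ, j = j' + 1 := ⟨j - 1, by omega⟩
        have e : (j' + 1) * n = j' * n + n := by ring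
        have h1 := ih ⟨n - 1, by omega⟩ i j' (by simp only; omega) (by simp only; omega)
          (by omega)
        exact Relation.ReflTransGen.tail h1
          (hstep ⟨n - 1, by omega⟩ (by simp only; omega) (Or.inr (Or.inl ⟨by simp only; omega, hz⟩)))
    · have h1 := ih ⟨q.val - 1, by omega⟩ i j (by simp only; omega) (by simp only; omega)
        (by omega)
      exact Relation.ReflTransGen.tail h1
        (hstep ⟨q.val - 1, by omega⟩ (by simp only; omega) (Or.inl ⟨by simp only; omega, hq⟩))

theorem frob_accepts_of {n m : ℕ} (hn : 2 ≤ n) (h : ∃ i j : ℕ, i * (n - 1) + j * n = m) :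
    (frob n).Accepts (uw m) := by
  obtain ⟨i, j, hij⟩ := h
  have h1 := frob_reach (m := m) hn m (0 : Fin (n + 1)) i j (by simp; omega) (by simp; omega)
    le_rfl
  refine ⟨Fin.last n, by simp [frob], m + 1, Relation.ReflTransGen.tail h1 ?_⟩
  unfold TwoNFA.Step
  rw [uw_length, tape_uw_rend (by omega)]
  refine ⟨by simp, by simp, Or.inr (Or.inl ⟨?_, rfl⟩)⟩
  simp [frob]

/-- Quadratic lower bound for complementing one-way nondeterministic automata by two-way
nondeterministic automata. -/
theorem quadratic_complement (n : ℕ) (hn : 3 ≤ n) :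
    ∃ A : TwoNFA Unit (Fin (n + 1)), A.OneWay ∧
      ∀ (Q : Type) [Fintype Q] (B : TwoNFA Unit Q),
        B.language = (A.language)ᶜ → n ^ 2 + 1 ≤ Fintype.card Q + 3 * n := by
  refine ⟨frob n, frob_oneWay n, ?_⟩
  intro Q _ B hB
  by_contra hlt
  push Not at hlt
  obtain ⟨k, rfl⟩ := Nat.exists_eq_add_of_le hn
  have hcop : Nat.Coprime (3 + k - 1) (3 + k) := by
    have e : 3 + k = (3 + k - 1) + 1 := by omega
    rw [e]
    simp
  have hfrob := frobeniusNumber_pair hcop (by omega) (by omega)
  rw [frobeniusNumber_iff] at hfrob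
  obtain ⟨hF1, hF2⟩ := hfrob
  set F := (3 + k - 1) * (3 + k) - (3 + k - 1) - (3 + k) with hF
  have hcard : Fintype.card Q < F := by
    have e0 : 3 + k - 1 = k + 2 := by omega
    have e : (k + 2) * (3 + k) = k * k + 5 * k + 6 := by ring
    have e2 : (3 + k) ^ 2 = k * k + 6 * k + 9 := by ring
    rw [hF, e0, e]
    rw [e2] at hlt
    omega
  have hnotA : ¬ (frob (3 + k)).Accepts (uw F) := by
    intro hacc
    obtain ⟨i, j, hij⟩ := frob_accepts_imp (by omega) hacc
    apply hF1
    rw [AddSubmonoid.mem_closure_pair]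
    exact ⟨i, j, by simpa using hij⟩
  have hBF : B.Accepts (uw F) := by
    have h1 : uw F ∈ B.language := by
      rw [hB]
      exact hnotA
    exact h1
  have hpump := accepts_pump B hcard hBF
  have h2 : uw (F + (Fintype.card Q).factorial) ∈ B.language := hpump
  rw [hB] at h2
  apply h2
  have h3 := hF2 (F + (Fintype.card Q).factorial)
    (by have := Nat.factorial_pos (Fintype.card Q); omega)
  rw [AddSubmonoid.mem_closure_pair] at h3
  obtain ⟨i, j, hij⟩ := h3
  exact frob_accepts_of (by omega) ⟨i, j, by simpa using hij⟩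

end Vale.Agent.Lib.P343
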